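import Vale.Agent.P336.Circ

/-!
# P336: lower bounds for unbalanced depth-three circuits
-/

namespace Vale.Agent.Results.P336.Unbalanced

open _root_.P336 Finset

open scoped Classical in
/-- (1) OR of CNFs with few wide clauses, accepting only isolated points, has many middle gates.
(2) the same for parity. (3) the tradeoff between top fan-in and middle fan-in for parity.
(4) the lower bound asked for in Q1, for parity and all unbalanced circuits. -/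
theorem result :
    (∀ (n k : ℕ), 2 ≤ k → ∀ (f : (Fin n → Bool) → Prop) (D : Circuit n),
      (∀ x, f x → ∀ i, ¬ f (flip x i)) → (∀ x, Circuit.val D x ↔ f x) →
      (∀ F ∈ D, #{C ∈ F | k < #C} ≤ 2 ^ (k - 2)) →
      (#{x | f x} : ℝ) ≤ 2 * #D * (2 : ℝ) ^ ((n : ℝ) - (n : ℝ) / (k : ℝ))) ∧
    (∀ (n k : ℕ), 1 ≤ n → 2 ≤ k → ∀ D : Circuit n, (∀ x, Circuit.val D x ↔ par x) →
      (∀ F ∈ D, #{C ∈ F | k < #C} ≤ 2 ^ (k - 2)) → 2 ^ n ≤ (4 * #D) ^ k) ∧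
    (∀ (n a b : ℕ), 1 ≤ n → ∀ D : Circuit n, (∀ x, Circuit.val D x ↔ par x) →
      #D ≤ 2 ^ a → (∀ F ∈ D, #F ≤ 2 ^ b) → n ≤ (a + 2) * (b + 2)) ∧
    (∀ δ : ℝ, 0 < δ → δ < 1 / 2 → ∃ n0 : ℕ, ∀ n ≥ n0, ∀ D : Circuit n,
      (∀ x, Circuit.val D x ↔ par x) →
      ((#D : ℝ) ≤ 2 ^ ((n : ℝ) ^ (1 / 2 - δ)) ∨
        ∀ F ∈ D, (#F : ℝ) ≤ 2 ^ ((n : ℝ) ^ (1 / 2 - δ))) →
      (2 : ℝ) ^ ((n : ℝ) ^ (1 / 2 + δ / 2)) ≤ Circuit.size D) := by
  refine ⟨fun n k hk f D hf hD hw => ?_, fun n k hn hk D hD hw => parity_bound hn k hk D hD hw,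
    fun n a b hn D hD ha hb => tradeoff hn a b D hD ha hb, fun δ h1 h2 => asymp δ h1 h2⟩
  have h1 := circuit_count k hk f hf D hD hw
  have h2 : (n : ℝ) * (1 - 1 / (k : ℝ)) = (n : ℝ) - (n : ℝ) / (k : ℝ) := by ring
  rw [h2] at h1
  linarith

end Vale.Agent.Results.P336.Unbalanced
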